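import Vale.Agent.P181.RH.Defs

/-!
# P181, RH: the final inequality
-/

set_option autoImplicit false

namespace Vale.Agent.P181.RH.H465

theorem core : ∀ δ : ℝ, 0 < δ → δ ≤ 1 → ∃ K X₀ : ℕ, ∀ a b X m u y G : ℕ, X₀ ≤ X →
  X ^ 100 ≤ a → (1 + δ / 2) * a + 2 ≤ u → u ≤ b → b ≤ 2 * u → b ≤ X * a → 3 ≤ m → m ≤ X →
  X ^ K * a ≤ 2 * y → a ^ 2 ≤ 2 * X * (G + 1) →
  (((a + b).choose a * 2 ^ ((m - 2) * a) * ((2 * a * b) ^ (u - 1) *
    (u.factorial * (u - 2).factorial)) : ℕ) : ℝ) ≤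
    (G : ℝ) ^ (2 * (u - 2)) * (1 + (y : ℝ) / (u - 2 : ℕ)) ^ ((m - 2) * (u - 2 - a)) := by
  intro δ hδ hδ1
  obtain ⟨L, hL⟩ := exists_nat_ge (57 / δ)
  refine ⟨L + 2, 2, ?_⟩
  intro a b X m u y G hX hXa hu hub hbu hbX hm hmX hy hG
  have ha0 : (0 : ℝ) ≤ a := Nat.cast_nonneg a
  have hu2 : (2 : ℝ) ≤ u := by nlinarith [mul_nonneg hδ.le ha0]
  have hu2' : 2 ≤ u := by exact_mod_cast hu2
  obtain ⟨v, rfl⟩ : ∃ v, u = v + 2 := ⟨u - 2, by omega⟩
  rw [show v + 2 - 1 = v + 1 from rfl, show v + 2 - 2 = v from rfl]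
  have hvr : (1 + δ / 2) * (a : ℝ) ≤ v := by
    push_cast at hu
    linarith
  have hX3 : X ^ 3 ≤ a := le_trans (Nat.pow_le_pow_right (by omega) (by norm_num)) hXa
  have hXX : 4 ≤ X * X := by nlinarith
  have h4X : 4 * X ≤ X ^ 3 := by
    have : X ^ 3 = X * X * X := by ring
    rw [this]
    exact Nat.mul_le_mul_right X hXX
  have hav : a ≤ v := by
    have : (a : ℝ) ≤ v := by nlinarith [mul_nonneg hδ.le ha0]
    exact_mod_cast this
  have hv8 : 8 ≤ v := by omega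
  have hG1 : 1 ≤ G := by
    by_contra h
    have h0 : G = 0 := by omega
    rw [h0] at hG
    have h1 : 4 * X ≤ a := le_trans h4X hX3
    nlinarith
  have hG2 : a ^ 2 ≤ 4 * X * G := by nlinarith [Nat.mul_le_mul_left (2 * X) hG1]
  -- the natural number part
  have n1 : (a + b).choose a ≤ X ^ (3 * v + 4) :=
    le_trans (Nat.choose_le_two_pow _ _) (le_trans (Nat.pow_le_pow_right (by norm_num) (by omega))
      (Nat.pow_le_pow_left hX _))
  have n2 : 2 ^ ((m - 2) * a) ≤ X ^ ((m - 2) * v) :=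
    le_trans (Nat.pow_le_pow_right (by norm_num) (Nat.mul_le_mul_left _ hav))
      (Nat.pow_le_pow_left hX _)
  have n3 : (v + 2).factorial * v.factorial ≤ ((v + 2) ^ 2) ^ (v + 1) := by
    have e1 : (v + 2).factorial ≤ (v + 2) ^ (v + 2) := Nat.factorial_le_pow _
    have e2 : v.factorial ≤ (v + 2) ^ v :=
      le_trans (Nat.factorial_le_pow _) (Nat.pow_le_pow_left (by omega) _)
    calc (v + 2).factorial * v.factorial ≤ (v + 2) ^ (v + 2) * (v + 2) ^ v := Nat.mul_le_mul e1 e2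
      _ = ((v + 2) ^ 2) ^ (v + 1) := by rw [← pow_mul, ← pow_add]; ring_nf
  have n4 : 2 * a * b * (v + 2) ^ 2 ≤ 2 * X ^ 3 * a ^ 4 := by
    have e1 : v + 2 ≤ X * a := le_trans hub hbX
    calc 2 * a * b * (v + 2) ^ 2 ≤ 2 * a * (X * a) * (X * a) ^ 2 :=
          Nat.mul_le_mul (Nat.mul_le_mul_left _ hbX) (Nat.pow_le_pow_left e1 2)
      _ = 2 * X ^ 3 * a ^ 4 := by ring
  have n5 : 2 * X ^ 3 * a ^ 4 ≤ X ^ 10 * G ^ 2 := by
    have e1 : a ^ 4 ≤ (4 * X * G) ^ 2 := by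
      calc a ^ 4 = (a ^ 2) ^ 2 := by ring
        _ ≤ _ := Nat.pow_le_pow_left hG2 2
    have e2 : 32 ≤ X ^ 5 := le_trans (by norm_num) (Nat.pow_le_pow_left hX 5)
    calc 2 * X ^ 3 * a ^ 4 ≤ 2 * X ^ 3 * (4 * X * G) ^ 2 := Nat.mul_le_mul_left _ e1
      _ = 32 * (X ^ 5 * G ^ 2) := by ring
      _ ≤ X ^ 5 * (X ^ 5 * G ^ 2) := Nat.mul_le_mul_right _ e2
      _ = X ^ 10 * G ^ 2 := by ring
  have n6 : 2 * X ^ 3 * a ^ 4 ≤ X ^ (4 + 4 * v) := by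
    have e1 : a ≤ X ^ v := le_trans hav (le_trans (Nat.lt_two_pow_self).le
      (Nat.pow_le_pow_left hX v))
    calc 2 * X ^ 3 * a ^ 4 ≤ X * X ^ 3 * (X ^ v) ^ 4 :=
          Nat.mul_le_mul (Nat.mul_le_mul_right _ hX) (Nat.pow_le_pow_left e1 4)
      _ = X ^ (4 + 4 * v) := by rw [← pow_mul, pow_add]; ring
  have n7 : (2 * a * b) ^ (v + 1) * ((v + 2).factorial * v.factorial) ≤
      X ^ (10 * v) * G ^ (2 * v) * X ^ (4 + 4 * v) := by
    calc (2 * a * b) ^ (v + 1) * ((v + 2).factorial * v.factorial)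
        ≤ (2 * a * b) ^ (v + 1) * ((v + 2) ^ 2) ^ (v + 1) := Nat.mul_le_mul_left _ n3
      _ = (2 * a * b * (v + 2) ^ 2) ^ (v + 1) := (mul_pow _ _ _).symm
      _ ≤ (2 * X ^ 3 * a ^ 4) ^ (v + 1) := Nat.pow_le_pow_left n4 _
      _ = (2 * X ^ 3 * a ^ 4) ^ v * (2 * X ^ 3 * a ^ 4) := pow_succ _ _
      _ ≤ (X ^ 10 * G ^ 2) ^ v * X ^ (4 + 4 * v) := Nat.mul_le_mul (Nat.pow_le_pow_left n5 _) n6
      _ = X ^ (10 * v) * G ^ (2 * v) * X ^ (4 + 4 * v) := by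
          rw [mul_pow, ← pow_mul, ← pow_mul]
  obtain ⟨q, rfl⟩ : ∃ q, m = q + 3 := ⟨m - 3, by omega⟩
  rw [show q + 3 - 2 = q + 1 from rfl] at n2 ⊢
  have n8 : (a + b).choose a * 2 ^ ((q + 1) * a) * ((2 * a * b) ^ (v + 1) *
      ((v + 2).factorial * v.factorial)) ≤ G ^ (2 * v) * X ^ (19 * v * (q + 1)) := by
    calc (a + b).choose a * 2 ^ ((q + 1) * a) * ((2 * a * b) ^ (v + 1) *
        ((v + 2).factorial * v.factorial))
        ≤ X ^ (3 * v + 4) * X ^ ((q + 1) * v) *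
          (X ^ (10 * v) * G ^ (2 * v) * X ^ (4 + 4 * v)) :=
          Nat.mul_le_mul (Nat.mul_le_mul n1 n2) n7
      _ = G ^ (2 * v) * X ^ ((3 * v + 4) + (q + 1) * v + 10 * v + (4 + 4 * v)) := by
          rw [pow_add, pow_add, pow_add]; ring
      _ ≤ G ^ (2 * v) * X ^ (19 * v * (q + 1)) := by
          refine Nat.mul_le_mul_left _ (Nat.pow_le_pow_right (by omega) ?_)
          nlinarith [Nat.zero_le (v * q)]
  -- the last factor
  have l1 : 19 * v ≤ L * (v - a) := by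
    have e1 : δ / 3 * (v : ℝ) ≤ (v : ℝ) - a := by
      nlinarith [mul_nonneg (mul_nonneg hδ.le ha0) (sub_nonneg.2 hδ1),
        mul_le_mul_of_nonneg_left hvr (show (0 : ℝ) ≤ 1 - δ / 3 by linarith)]
    have e2 : (57 : ℝ) ≤ L * δ := by
      rw [div_le_iff₀ hδ] at hL
      exact hL
    have e3 : (19 : ℝ) * v ≤ L * ((v : ℝ) - a) := by
      have hL0 : (0 : ℝ) ≤ L := Nat.cast_nonneg L
      have hv0 : (0 : ℝ) ≤ v := Nat.cast_nonneg v
      nlinarith [mul_le_mul_of_nonneg_left e1 hL0, mul_le_mul_of_nonneg_right e2 hv0]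
    have e4 : ((v - a : ℕ) : ℝ) = (v : ℝ) - a := Nat.cast_sub hav
    rw [← e4] at e3
    exact_mod_cast e3
  have l2 : X ^ L * v ≤ y := by
    have e1 : v ≤ X * a := le_trans (by omega) (le_trans hub hbX)
    have e2 : X ^ L * v ≤ X ^ L * (X * a) := Nat.mul_le_mul_left _ e1
    have e3 : 2 * (X ^ L * (X * a)) ≤ X * (X ^ L * (X * a)) := Nat.mul_le_mul_right _ hX
    have e4 : X * (X ^ L * (X * a)) = X ^ (L + 2) * a := by ring
    omega
  have l3 : (X : ℝ) ^ L ≤ 1 + (y : ℝ) / v := by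
    have hv0 : (0 : ℝ) < v := by exact_mod_cast (by omega : 0 < v)
    have e1 : (X : ℝ) ^ L * v ≤ y := by exact_mod_cast l2
    have e2 : (X : ℝ) ^ L ≤ (y : ℝ) / v := by rwa [le_div_iff₀ hv0]
    linarith
  have hX1 : (1 : ℝ) ≤ X := by exact_mod_cast (by omega : 1 ≤ X)
  have l4 : (X : ℝ) ^ (19 * v * (q + 1)) ≤ (1 + (y : ℝ) / v) ^ ((q + 1) * (v - a)) := by
    calc (X : ℝ) ^ (19 * v * (q + 1)) ≤ (X : ℝ) ^ (L * ((q + 1) * (v - a))) := by
          refine pow_le_pow_right₀ hX1 ?_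
          calc 19 * v * (q + 1) ≤ L * (v - a) * (q + 1) := Nat.mul_le_mul_right _ l1
            _ = L * ((q + 1) * (v - a)) := by ring
      _ = ((X : ℝ) ^ L) ^ ((q + 1) * (v - a)) := by rw [pow_mul]
      _ ≤ _ := pow_le_pow_left₀ (by positivity) l3 _
  calc (((a + b).choose a * 2 ^ ((q + 1) * a) * ((2 * a * b) ^ (v + 1) *
      ((v + 2).factorial * v.factorial)) : ℕ) : ℝ)
      ≤ ((G ^ (2 * v) * X ^ (19 * v * (q + 1)) : ℕ) : ℝ) := by exact_mod_cast n8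
    _ = (G : ℝ) ^ (2 * v) * (X : ℝ) ^ (19 * v * (q + 1)) := by push_cast; ring
    _ ≤ _ := mul_le_mul_of_nonneg_left l4 (by positivity)

/-- **[NUM]** -/
theorem numRH : NumRH := core

end Vale.Agent.P181.RH.H465
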